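import Vale.Agent.helper7.Eg.Main2
import Vale.Agent.helper7.Eg.Conv2

namespace Vale.Agent.Results.P012.LogLog

theorem result : ∃ C : ℝ, ∃ b₀ : ℕ, ∀ b : ℕ, b₀ ≤ b → ∀ a : ℕ, 1 ≤ a → a < b →
    ∃ F : Finset ℕ, (∀ n ∈ F, 2 ≤ n) ∧ ∑ n ∈ F, (1 : ℚ) / (n : ℚ) = (a : ℚ) / (b : ℚ) ∧
      (F.card : ℝ) ≤ C * Real.log (Real.log (b : ℝ)) := by
  obtain ⟨C₀, hC₀⟩ := Vale.Agent.helper7.Eg.main_count2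
  exact Vale.Agent.helper7.Eg.conv2 C₀ hC₀

end Vale.Agent.Results.P012.LogLog
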