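import Vale.Agent.Egypt.Levels

open Vale.Agent.Egypt

namespace Vale.Agent.Results.P012.LogLogSquare

theorem result : ∃ C : ℝ, ∃ b₀ : ℕ, ∀ b : ℕ, b₀ ≤ b → ∀ a : ℕ, 1 ≤ a → a < b →
    ∃ F : Finset ℕ, (∀ n ∈ F, 2 ≤ n) ∧ ∑ n ∈ F, (1 : ℚ) / (n : ℚ) = (a : ℚ) / (b : ℚ) ∧
      (F.card : ℝ) ≤ C * (Real.log (Real.log (b : ℝ))) ^ 2 := by
  obtain ⟨e, t₀, hlev⟩ := all_levels
  refine ⟨2 * t₀ + 37440, 256, ?_⟩
  intro b hb a _ hab
  have hb' : (256 : ℝ) ≤ (b : ℝ) := by exact_mod_cast hb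
  have hbpos : (0 : ℝ) < (b : ℝ) := by linarith
  have hlog2 : (0.69 : ℝ) < Real.log 2 := by
    have := Real.log_two_gt_d9
    linarith
  have hlogb : (5 : ℝ) ≤ Real.log (b : ℝ) := by
    have h1 : Real.log 256 ≤ Real.log (b : ℝ) := Real.log_le_log (by norm_num) hb'
    have h2 : Real.log 256 = 8 * Real.log 2 := by
      rw [show (256 : ℝ) = 2 ^ 8 by norm_num, Real.log_pow]
      norm_num
    rw [h2] at h1
    linarith
  have hexp : Real.exp 1 < 5 := by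
    have := Real.exp_one_lt_d9
    linarith
  have hL : (1 : ℝ) ≤ Real.log (Real.log (b : ℝ)) := by
    rw [Real.le_log_iff_exp_le (by linarith)]
    linarith
  set L := Real.log (Real.log (b : ℝ)) with hLdef
  set k := ⌈2 * L⌉₊ with hk
  have hk1 : 2 * L ≤ (k : ℝ) := Nat.le_ceil _
  have hk2 : (k : ℝ) ≤ 2 * L + 1 := (Nat.ceil_lt_add_one (by linarith)).le
  obtain ⟨S, hS, hP⟩ := hlev (k + 7) (by omega)
  set H := Mult e * ∏ p ∈ S, p with hH
  -- size of the modulus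
  have h2k : Real.log (b : ℝ) ≤ (2 : ℝ) ^ k := by
    have h3 : L ≤ (k : ℝ) * Real.log 2 := by nlinarith
    have h4 : Real.exp L = Real.log (b : ℝ) := Real.exp_log (by linarith)
    have h5 : Real.exp ((k : ℝ) * Real.log 2) = (2 : ℝ) ^ k := by
      rw [mul_comm, Real.exp_mul, Real.exp_log (by norm_num), Real.rpow_natCast]
    rw [← h4, ← h5]
    exact Real.exp_le_exp.mpr h3
  have hsize : 3 * b ≤ 2 ^ (2 ^ (k + 7)) := by
    have h3b : (0 : ℝ) < 3 * (b : ℝ) := by linarith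
    have h4 : Real.log (3 * (b : ℝ)) ≤ Real.log ((2 : ℝ) ^ (2 ^ (k + 7))) := by
      rw [Real.log_mul (by norm_num) hbpos.ne', Real.log_pow]
      have h5 : Real.log 3 ≤ Real.log (b : ℝ) := Real.log_le_log (by norm_num) (by linarith)
      have h6 : ((2 ^ (k + 7) : ℕ) : ℝ) = 128 * (2 : ℝ) ^ k := by
        push_cast
        rw [pow_add]
        norm_num
        ring
      rw [h6]
      have h7 : (128 : ℝ) * Real.log (b : ℝ) ≤ 128 * (2 : ℝ) ^ k := by linarith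
      nlinarith
    have h5 : 3 * (b : ℝ) ≤ (2 : ℝ) ^ (2 ^ (k + 7)) :=
      (Real.log_le_log_iff h3b (by positivity)).mp h4
    exact_mod_cast h5
  have hH3 : 3 * b ≤ H := hsize.trans (good_size e _ S hS)
  obtain ⟨F, hF1, hF2, hF3⟩ := fraction_of_sums H _ a b (by omega) hab (good_coprime e _ S hS) hH3 hP
  refine ⟨F, hF1, hF2, ?_⟩
  have hcard : (F.card : ℝ) ≤ 2 * ((t₀ : ℝ) + ((k : ℝ) + 7) * (144 * ((k : ℝ) + 7) + 432)) := by
    have : F.card ≤ 2 * (t₀ + (k + 7) * (144 * (k + 7) + 432)) := hF3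
    exact_mod_cast this
  have hl : (k : ℝ) + 7 ≤ 10 * L := by linarith
  have hl0 : (0 : ℝ) ≤ (k : ℝ) + 7 := by positivity
  have h1 : ((k : ℝ) + 7) * (144 * ((k : ℝ) + 7) + 432) ≤ (10 * L) * (1872 * L) := by
    apply mul_le_mul hl _ (by positivity) (by linarith)
    linarith
  have h2 : (t₀ : ℝ) ≤ (t₀ : ℝ) * L ^ 2 := by
    have h3 : (1 : ℝ) ≤ L ^ 2 := one_le_pow₀ hL
    have h4 : (0 : ℝ) ≤ (t₀ : ℝ) := by positivity
    nlinarith
  nlinarith

end Vale.Agent.Results.P012.LogLogSquare
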