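import Vale.Agent.helper7.Eg.Main
import Vale.Agent.helper7.Eg.Conv

namespace Vale.Agent.Results.P012.LogLogTriple

theorem result : ∃ C : ℝ, ∃ b₀ : ℕ, ∀ b : ℕ, b₀ ≤ b → ∀ a : ℕ, 1 ≤ a → a < b →
    ∃ F : Finset ℕ, (∀ n ∈ F, 2 ≤ n) ∧ ∑ n ∈ F, (1 : ℚ) / (n : ℚ) = (a : ℚ) / (b : ℚ) ∧
      (F.card : ℝ) ≤
        C * Real.log (Real.log (b : ℝ)) * Real.log (Real.log (Real.log (b : ℝ))) := by
  obtain ⟨C₀, hC₀⟩ := Vale.Agent.helper7.Eg.main_count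
  exact Vale.Agent.helper7.Eg.conv C₀ hC₀

end Vale.Agent.Results.P012.LogLogTriple
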